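import Vale.Agent.H18.Riesz

/-!
# From a Bernstein-type differential inequality to a bound on the derivative at the origin

Let `P` be a real polynomial of degree at most `d ≥ 2` with `|P| ≤ 1` on `[-1, 1]` and

`|P'(x)| (1 - x^2) ≤ d (1 - P(x)^2)` for `-1 < x < 1`.

Then `P'(0) ≤ d - 1 / (d sin^2(π/(4d)) (1 + ((1+s)/(1-s))^d))` with `s = sin (π/(2d))`, and in
particular `P'(0) ≤ (24/25) d`.

Steps: (1) the function `log((1-P)/(1+P)) + d log((1+x)/(1-x))` is monotone, which bounds the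
odd part of `P` at `s` by `(R-1)/(R+1)`, `R = ((1+s)/(1-s))^d`; (2) the M. Riesz interpolation
formula for the odd part, whose two nodes nearest to the origin carry the deficiency;
(3) elementary numerical estimates.
-/

namespace Vale.Agent.H18



/-- Monotonicity consequence of the differential inequality
`|P'(x)| (1 - x^2) ≤ d (1 - P(x)^2)` when `|P| < 1` on `[-1, 1]`. -/
theorem ode_mono (d : ℕ) (P : Polynomial ℝ)
    (hb : ∀ x ∈ Set.Icc (-1 : ℝ) 1, |P.eval x| < 1)
    (hA : ∀ x ∈ Set.Ioo (-1 : ℝ) 1,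
      |P.derivative.eval x| * (1 - x ^ 2) ≤ d * (1 - (P.eval x) ^ 2))
    (s : ℝ) (hs0 : 0 < s) (hs1 : s < 1) :
    (1 - P.eval (-s)) * (1 + P.eval s) * (1 - s) ^ (2 * d)
      ≤ (1 - P.eval s) * (1 + P.eval (-s)) * (1 + s) ^ (2 * d) := by
  set G : ℝ → ℝ := fun x =>
    Real.log (1 - P.eval x) - Real.log (1 + P.eval x)
      + d * (Real.log (1 + x) - Real.log (1 - x)) with hG
  have hsub : Set.Icc (-s) s ⊆ Set.Ioo (-1 : ℝ) 1 := by
    intro x hx
    exact ⟨by linarith [hx.1], by linarith [hx.2]⟩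
  have hpos : ∀ x ∈ Set.Ioo (-1 : ℝ) 1,
      0 < 1 - P.eval x ∧ 0 < 1 + P.eval x ∧ 0 < 1 + x ∧ 0 < 1 - x := by
    intro x hx
    have h := hb x ⟨hx.1.le, hx.2.le⟩
    rw [abs_lt] at h
    exact ⟨by linarith [h.2], by linarith [h.1], by linarith [hx.1], by linarith [hx.2]⟩
  have hderiv : ∀ x ∈ Set.Ioo (-1 : ℝ) 1, HasDerivAt G
      (-(P.derivative.eval x) / (1 - P.eval x) - P.derivative.eval x / (1 + P.eval x)
        + d * (1 / (1 + x) - (-1) / (1 - x))) x := by
    intro x hx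
    obtain ⟨h1, h2, h3, h4⟩ := hpos x hx
    have hP := P.hasDerivAt x
    have e1 : HasDerivAt (fun y => Real.log (1 - P.eval y))
        (-(P.derivative.eval x) / (1 - P.eval x)) x :=
      (hP.const_sub 1).log h1.ne'
    have e2 : HasDerivAt (fun y => Real.log (1 + P.eval y))
        (P.derivative.eval x / (1 + P.eval x)) x :=
      (hP.const_add 1).log h2.ne'
    have e3 : HasDerivAt (fun y : ℝ => Real.log (1 + y)) (1 / (1 + x)) x :=
      ((hasDerivAt_id' x).const_add 1).log h3.ne'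
    have e4 : HasDerivAt (fun y : ℝ => Real.log (1 - y)) ((-1) / (1 - x)) x :=
      ((hasDerivAt_id' x).const_sub 1).log h4.ne'
    exact (e1.sub e2).add ((e3.sub e4).const_mul (d : ℝ))
  have hmono : MonotoneOn G (Set.Icc (-s) s) := by
    apply monotoneOn_of_deriv_nonneg (convex_Icc _ _)
    · intro x hx
      exact (hderiv x (hsub hx)).continuousAt.continuousWithinAt
    · intro x hx
      rw [interior_Icc] at hx
      exact (hderiv x (hsub (Set.Ioo_subset_Icc_self hx))).differentiableAt.differentiableWithinAt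
    · intro x hx
      rw [interior_Icc] at hx
      have hx' := hsub (Set.Ioo_subset_Icc_self hx)
      rw [(hderiv x hx').deriv]
      obtain ⟨h1, h2, h3, h4⟩ := hpos x hx'
      have hAx := hA x hx'
      have h5 : P.derivative.eval x * (1 - x ^ 2) ≤ d * (1 - (P.eval x) ^ 2) :=
        le_trans (mul_le_mul_of_nonneg_right (le_abs_self _) (by nlinarith)) hAx
      have e : -(P.derivative.eval x) / (1 - P.eval x) - P.derivative.eval x / (1 + P.eval x)
          + d * (1 / (1 + x) - (-1) / (1 - x))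
          = 2 * (d * (1 - (P.eval x) ^ 2) - P.derivative.eval x * (1 - x ^ 2))
            / ((1 - P.eval x) * (1 + P.eval x) * ((1 + x) * (1 - x))) := by
        field_simp
        ring
      rw [e]
      apply div_nonneg
      · linarith
      · positivity
  have hle := hmono (Set.left_mem_Icc.mpr (by linarith)) (Set.right_mem_Icc.mpr (by linarith))
    (by linarith : -s ≤ s)
  have hm := hpos (-s) ⟨by linarith, by linarith⟩
  have hp := hpos s ⟨by linarith, by linarith⟩
  obtain ⟨a1, a2, a3, a4⟩ := hm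
  obtain ⟨b1, b2, b3, b4⟩ := hp
  have hX : 0 < (1 - P.eval (-s)) * (1 + P.eval s) * (1 - s) ^ (2 * d) := by positivity
  have hY : 0 < (1 - P.eval s) * (1 + P.eval (-s)) * (1 + s) ^ (2 * d) := by positivity
  rw [← Real.log_le_log_iff hX hY]
  rw [Real.log_mul (by positivity) (by positivity), Real.log_mul a1.ne' b2.ne', Real.log_pow,
    Real.log_mul (by positivity) (by positivity), Real.log_mul b1.ne' a2.ne', Real.log_pow]
  simp only [hG] at hle
  have e5 : (1 : ℝ) + -s = 1 - s := by ring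
  have e6 : (1 : ℝ) - -s = 1 + s := by ring
  rw [e5, e6] at hle
  push_cast
  linarith

/-- algebraic step: from `(1-b)(1+a) ≤ (1-a)(1+b) R^2` with `|a|, |b| ≤ 1`, `R ≥ 1`,
deduce `(a - b)/2 ≤ (R-1)/(R+1)`. -/
theorem half_diff_le_of_cross (a b R : ℝ) (ha : |a| ≤ 1) (hb : |b| ≤ 1) (hR : 1 ≤ R)
    (h : (1 - b) * (1 + a) ≤ (1 - a) * (1 + b) * R ^ 2) :
    (a - b) / 2 ≤ (R - 1) / (R + 1) := by
  rw [abs_le] at ha hb
  set q := (a - b) / 2 with hq
  have hq1 : q ≤ 1 := by rw [hq]; linarith [ha.2, hb.1]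
  have hR0 : 0 < R + 1 := by linarith
  rw [le_div_iff₀ hR0]
  by_contra hcon
  push Not at hcon
  -- (R+1) q - (R-1) > 0 and (R-1) q - (R+1) < 0
  have h2 : (R - 1) * q - (R + 1) < 0 := by nlinarith
  have h3 : ((R + 1) * q - (R - 1)) * ((R - 1) * q - (R + 1)) < 0 :=
    mul_neg_of_pos_of_neg (by linarith) h2
  -- but the product is nonnegative
  have hab : a * b ≥ -q ^ 2 := by
    rw [hq]; nlinarith [sq_nonneg (a + b)]
  have h4 : (R ^ 2 - 1) * q ^ 2 - 2 * (R ^ 2 + 1) * q + (R ^ 2 - 1) ≥ 0 := by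
    have e1 : (1 - b) * (1 + a) = 1 + 2 * q - a * b := by rw [hq]; ring
    have e2 : (1 - a) * (1 + b) = 1 - 2 * q - a * b := by rw [hq]; ring
    rw [e1, e2] at h
    have hR2 : 0 ≤ R ^ 2 - 1 := by nlinarith
    nlinarith [mul_le_mul_of_nonneg_left hab hR2]
  nlinarith

/-- Strict version of the odd-part bound. -/
theorem odd_part_le_strict (d : ℕ) (P : Polynomial ℝ)
    (hb : ∀ x ∈ Set.Icc (-1 : ℝ) 1, |P.eval x| < 1)
    (hA : ∀ x ∈ Set.Ioo (-1 : ℝ) 1,
      |P.derivative.eval x| * (1 - x ^ 2) ≤ d * (1 - (P.eval x) ^ 2))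
    (s : ℝ) (hs0 : 0 < s) (hs1 : s < 1) :
    (P.eval s - P.eval (-s)) / 2
      ≤ (((1 + s) / (1 - s)) ^ d - 1) / (((1 + s) / (1 - s)) ^ d + 1) := by
  have h := ode_mono d P hb hA s hs0 hs1
  have h1s : 0 < 1 - s := by linarith
  have hR1 : 1 ≤ ((1 + s) / (1 - s)) ^ d :=
    one_le_pow₀ (by rw [le_div_iff₀ h1s]; linarith)
  apply half_diff_le_of_cross _ _ _ (hb s ⟨by linarith, by linarith⟩).le
    (hb (-s) ⟨by linarith, by linarith⟩).le hR1
  have e : (((1 + s) / (1 - s)) ^ d) ^ 2 * (1 - s) ^ (2 * d) = (1 + s) ^ (2 * d) := by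
    rw [div_pow, pow_mul', pow_mul' (1 + s)]
    have : (1 - s) ^ d ≠ 0 := pow_ne_zero _ h1s.ne'
    rw [div_pow]
    field_simp
  have hpos : 0 < (1 - s) ^ (2 * d) := by positivity
  rw [← e] at h
  have h' : (1 - P.eval (-s)) * (1 + P.eval s) * (1 - s) ^ (2 * d)
      ≤ ((1 - P.eval s) * (1 + P.eval (-s)) * (((1 + s) / (1 - s)) ^ d) ^ 2) * (1 - s) ^ (2 * d) := by
    calc _ ≤ _ := h
      _ = _ := by ring
  exact le_of_mul_le_mul_right h' hpos

/-- The odd part of `P` at `s` is at most `(R-1)/(R+1)`, `R = ((1+s)/(1-s))^d`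
(the value `tanh (d artanh s)`). -/
theorem odd_part_le (d : ℕ) (P : Polynomial ℝ)
    (hb : ∀ x ∈ Set.Icc (-1 : ℝ) 1, |P.eval x| ≤ 1)
    (hA : ∀ x ∈ Set.Ioo (-1 : ℝ) 1,
      |P.derivative.eval x| * (1 - x ^ 2) ≤ d * (1 - (P.eval x) ^ 2))
    (s : ℝ) (hs0 : 0 < s) (hs1 : s < 1) :
    (P.eval s - P.eval (-s)) / 2
      ≤ (((1 + s) / (1 - s)) ^ d - 1) / (((1 + s) / (1 - s)) ^ d + 1) := by
  have h1s : 0 < 1 - s := by linarith
  set R := ((1 + s) / (1 - s)) ^ d with hRdef
  have hR1 : 1 ≤ R := one_le_pow₀ (by rw [le_div_iff₀ h1s]; linarith)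
  set c := (R - 1) / (R + 1) with hc
  have hc0 : 0 ≤ c := div_nonneg (by linarith) (by linarith)
  set q := (P.eval s - P.eval (-s)) / 2 with hq
  -- the scaled polynomials satisfy the strict hypotheses
  have hstep : ∀ ε : ℝ, 0 < ε → ε < 1 → (1 - ε) * q ≤ c := by
    intro ε hε0 hε1
    have hb' : ∀ x ∈ Set.Icc (-1 : ℝ) 1, |(Polynomial.C (1 - ε) * P).eval x| < 1 := by
      intro x hx
      rw [Polynomial.eval_mul, Polynomial.eval_C, abs_mul, abs_of_pos (by linarith : 0 < 1 - ε)]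
      have := hb x hx
      have h0 := abs_nonneg (P.eval x)
      nlinarith
    have hA' : ∀ x ∈ Set.Ioo (-1 : ℝ) 1,
        |(Polynomial.C (1 - ε) * P).derivative.eval x| * (1 - x ^ 2)
          ≤ d * (1 - ((Polynomial.C (1 - ε) * P).eval x) ^ 2) := by
      intro x hx
      rw [Polynomial.derivative_C_mul, Polynomial.eval_mul, Polynomial.eval_C,
        Polynomial.eval_mul, Polynomial.eval_C, abs_mul, abs_of_pos (by linarith : 0 < 1 - ε)]
      have h1 := hA x hx
      have h2 := hb x ⟨hx.1.le, hx.2.le⟩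
      have h3 : (P.eval x) ^ 2 ≤ 1 := by
        rw [abs_le] at h2; nlinarith [h2.1, h2.2]
      have h4 : (0 : ℝ) ≤ d := Nat.cast_nonneg d
      have h5 : (1 - ε) * (1 - (P.eval x) ^ 2) ≤ 1 - ((1 - ε) * P.eval x) ^ 2 := by
        nlinarith [sq_nonneg (P.eval x), mul_nonneg hε0.le (sq_nonneg (P.eval x))]
      calc (1 - ε) * |P.derivative.eval x| * (1 - x ^ 2)
          = (1 - ε) * (|P.derivative.eval x| * (1 - x ^ 2)) := by ring
        _ ≤ (1 - ε) * (d * (1 - (P.eval x) ^ 2)) :=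
            mul_le_mul_of_nonneg_left h1 (by linarith)
        _ = d * ((1 - ε) * (1 - (P.eval x) ^ 2)) := by ring
        _ ≤ d * (1 - ((1 - ε) * P.eval x) ^ 2) := mul_le_mul_of_nonneg_left h5 h4
    have := odd_part_le_strict d (Polynomial.C (1 - ε) * P) hb' hA' s hs0 hs1
    simp only [Polynomial.eval_mul, Polynomial.eval_C] at this
    rw [hq]
    calc (1 - ε) * ((P.eval s - P.eval (-s)) / 2)
        = ((1 - ε) * P.eval s - (1 - ε) * P.eval (-s)) / 2 := by ring
      _ ≤ _ := this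
  by_contra hcon
  push Not at hcon
  have hqpos : 0 < q := lt_of_le_of_lt hc0 hcon
  -- choose ε = (q - c) / (2 q)
  have hε0 : 0 < (q - c) / (2 * q) := div_pos (by linarith) (by linarith)
  have hε1 : (q - c) / (2 * q) < 1 := by
    rw [div_lt_one (by linarith)]; linarith
  have h := hstep _ hε0 hε1
  have e : (1 - (q - c) / (2 * q)) * q = (q + c) / 2 := by
    field_simp
    ring
  rw [e] at h
  linarith


theorem frac_mono (s σ : ℝ) (_hs : 0 ≤ s) (hsσ : s ≤ σ) (hσ : σ < 1) :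
    (1 + s) / (1 - s) ≤ (1 + σ) / (1 - σ) := by
  rw [div_le_div_iff₀ (by linarith) (by linarith)]
  nlinarith

theorem exp_18_lt : Real.exp 18 < 39 ^ 5 := by
  have h1 : Real.exp 18 = Real.exp 1 ^ 18 := by
    rw [← Real.exp_nat_mul]; norm_num
  rw [h1]
  have h2 := Real.exp_one_lt_d9
  calc Real.exp 1 ^ 18 < (2.7182818286 : ℝ) ^ 18 :=
        pow_lt_pow_left₀ h2 (Real.exp_pos 1).le (by norm_num)
    _ ≤ 39 ^ 5 := by norm_num

theorem exp_le_39 (y : ℝ) (hy : y ≤ 3.6) : Real.exp y ≤ 39 := by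
  have h1 : Real.exp y ≤ Real.exp 3.6 := Real.exp_le_exp.mpr hy
  refine h1.trans ?_
  by_contra hcon
  push Not at hcon
  have h2 : (39 : ℝ) ^ 5 < Real.exp 3.6 ^ 5 := pow_lt_pow_left₀ hcon (by norm_num) (by norm_num)
  have h3 : Real.exp 3.6 ^ 5 = Real.exp 18 := by
    rw [← Real.exp_nat_mul]; norm_num
  rw [h3] at h2
  exact absurd h2 (not_lt.mpr exp_18_lt.le)

/-- `((1 + sin(π/(2d))) / (1 - sin(π/(2d))))^d ≤ 39` for every `d ≥ 2`. -/
theorem ratio_pow_le (d : ℕ) (hd : 2 ≤ d) :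
    ((1 + Real.sin (Real.pi / (2 * d))) / (1 - Real.sin (Real.pi / (2 * d)))) ^ d ≤ 39 := by
  have hpi1 : Real.pi < 3.1416 := Real.pi_lt_d4
  have hpi0 := Real.pi_pos
  have hdR : (2 : ℝ) ≤ d := by exact_mod_cast hd
  have harg0 : 0 ≤ Real.pi / (2 * d) := by positivity
  have hsle : Real.sin (Real.pi / (2 * d)) ≤ Real.pi / (2 * d) := Real.sin_le harg0
  have hs0 : 0 ≤ Real.sin (Real.pi / (2 * d)) :=
    Real.sin_nonneg_of_nonneg_of_le_pi harg0 (by
      rw [div_le_iff₀ (by positivity)]; nlinarith)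
  have hbase0 : ∀ σ : ℝ, σ < 1 → Real.sin (Real.pi / (2 * d)) ≤ σ →
      0 ≤ (1 + Real.sin (Real.pi / (2 * d))) / (1 - Real.sin (Real.pi / (2 * d))) := by
    intro σ h1 h2
    apply div_nonneg <;> linarith
  obtain h | h | h | h | h | h : d = 2 ∨ d = 3 ∨ d = 4 ∨ d = 5 ∨ d = 6 ∨ 7 ≤ d := by omega
  · subst h
    have e : Real.pi / (2 * ((2 : ℕ) : ℝ)) = Real.pi / 4 := by push_cast; ring
    rw [e, Real.sin_pi_div_four]
    have h2 : Real.sqrt 2 / 2 ≤ 0.7072 := by
      have : Real.sqrt 2 ≤ 1.4144 := by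
        rw [Real.sqrt_le_iff]; constructor <;> norm_num
      linarith
    have h3 : (0 : ℝ) ≤ Real.sqrt 2 / 2 := by positivity
    calc ((1 + Real.sqrt 2 / 2) / (1 - Real.sqrt 2 / 2)) ^ 2
        ≤ ((1 + 0.7072) / (1 - 0.7072)) ^ 2 :=
          pow_le_pow_left₀ (div_nonneg (by linarith) (by linarith))
            (frac_mono _ _ h3 h2 (by norm_num)) 2
      _ ≤ 39 := by norm_num
  · subst h
    have h2 : Real.sin (Real.pi / (2 * ((3 : ℕ) : ℝ))) ≤ 0.5236 := by
      refine hsle.trans ?_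
      push_cast
      linarith
    calc _ ≤ ((1 + 0.5236) / (1 - 0.5236)) ^ 3 :=
          pow_le_pow_left₀ (hbase0 _ (by norm_num) h2) (frac_mono _ _ hs0 h2 (by norm_num)) 3
      _ ≤ 39 := by norm_num
  · subst h
    have h2 : Real.sin (Real.pi / (2 * ((4 : ℕ) : ℝ))) ≤ 0.3927 := by
      refine hsle.trans ?_
      push_cast
      linarith
    calc _ ≤ ((1 + 0.3927) / (1 - 0.3927)) ^ 4 :=
          pow_le_pow_left₀ (hbase0 _ (by norm_num) h2) (frac_mono _ _ hs0 h2 (by norm_num)) 4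
      _ ≤ 39 := by norm_num
  · subst h
    have h2 : Real.sin (Real.pi / (2 * ((5 : ℕ) : ℝ))) ≤ 0.31416 := by
      refine hsle.trans ?_
      push_cast
      linarith
    calc _ ≤ ((1 + 0.31416) / (1 - 0.31416)) ^ 5 :=
          pow_le_pow_left₀ (hbase0 _ (by norm_num) h2) (frac_mono _ _ hs0 h2 (by norm_num)) 5
      _ ≤ 39 := by norm_num
  · subst h
    have h2 : Real.sin (Real.pi / (2 * ((6 : ℕ) : ℝ))) ≤ 0.2618 := by
      refine hsle.trans ?_
      push_cast
      linarith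
    calc _ ≤ ((1 + 0.2618) / (1 - 0.2618)) ^ 6 :=
          pow_le_pow_left₀ (hbase0 _ (by norm_num) h2) (frac_mono _ _ hs0 h2 (by norm_num)) 6
      _ ≤ 39 := by norm_num
  · -- d ≥ 7
    have hd7 : (7 : ℝ) ≤ d := by exact_mod_cast h
    set x := Real.pi / (2 * d) with hx
    have hx0 : 0 ≤ x := harg0
    have hx1 : x ≤ 0.2244 := by
      rw [hx, div_le_iff₀ (by positivity)]
      nlinarith
    have h1x : 0 < 1 - x := by linarith
    have hstep1 : (1 + Real.sin x) / (1 - Real.sin x) ≤ (1 + x) / (1 - x) :=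
      frac_mono _ _ hs0 hsle (by linarith)
    have hstep2 : (1 + x) / (1 - x) ≤ Real.exp (x + x / (1 - x)) := by
      rw [Real.exp_add]
      have e1 : 1 + x ≤ Real.exp x := by linarith [Real.add_one_le_exp x]
      have e2 : 1 / (1 - x) ≤ Real.exp (x / (1 - x)) := by
        have := Real.add_one_le_exp (x / (1 - x))
        have e3 : x / (1 - x) + 1 = 1 / (1 - x) := by field_simp; ring
        linarith
      calc (1 + x) / (1 - x) = (1 + x) * (1 / (1 - x)) := by ring
        _ ≤ Real.exp x * Real.exp (x / (1 - x)) :=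
            mul_le_mul e1 e2 (by positivity) (Real.exp_pos x).le
    have hbase : 0 ≤ (1 + Real.sin x) / (1 - Real.sin x) :=
      div_nonneg (by linarith) (by linarith)
    calc ((1 + Real.sin x) / (1 - Real.sin x)) ^ d
        ≤ (Real.exp (x + x / (1 - x))) ^ d := pow_le_pow_left₀ hbase (hstep1.trans hstep2) d
      _ = Real.exp (d * (x + x / (1 - x))) := by rw [← Real.exp_nat_mul]
      _ ≤ 39 := by
          apply exp_le_39
          have e4 : (d : ℝ) * x = Real.pi / 2 := by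
            rw [hx]; field_simp
          have e5 : (d : ℝ) * (x + x / (1 - x)) = Real.pi / 2 + (Real.pi / 2) / (1 - x) := by
            have : (d : ℝ) * (x + x / (1 - x)) = (d : ℝ) * x + ((d : ℝ) * x) / (1 - x) := by ring
            rw [this, e4]
          rw [e5]
          have e6 : (Real.pi / 2) / (1 - x) ≤ (3.1416 / 2) / (1 - 0.2244) := by
            apply div_le_div₀ (by norm_num) (by linarith) (by norm_num) (by linarith)
          have e7 : (3.1416 / 2 : ℝ) / (1 - 0.2244) ≤ 2.026 := by norm_num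
          linarith

open Finset



/-- Analytic half of the level-one bound: a real polynomial of degree at most `d ≥ 2` which is
bounded by `1` on `[-1, 1]` and satisfies the differential inequality
`|P'(x)| (1 - x^2) ≤ d (1 - P(x)^2)` on `(-1, 1)` has
`P'(0) ≤ d - 1 / (d sin^2(π/(4d)) (1 + ((1+s)/(1-s))^d))`, `s = sin (π/(2d))`. -/
theorem deriv_zero_le_of_boolean_bernstein (d : ℕ) (hd : 2 ≤ d) (P : Polynomial ℝ)
    (hdeg : P.natDegree ≤ d)
    (hb : ∀ x ∈ Set.Icc (-1 : ℝ) 1, |P.eval x| ≤ 1)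
    (hA : ∀ x ∈ Set.Ioo (-1 : ℝ) 1,
      |P.derivative.eval x| * (1 - x ^ 2) ≤ d * (1 - (P.eval x) ^ 2)) :
    P.derivative.eval 0 ≤ d - 1 / (d * Real.sin (Real.pi / (4 * d)) ^ 2
      * (1 + ((1 + Real.sin (Real.pi / (2 * d))) / (1 - Real.sin (Real.pi / (2 * d)))) ^ d)) := by
  have hd0 : 0 < d := by omega
  have hdR : (2 : ℝ) ≤ d := by exact_mod_cast hd
  have hdpos : (0 : ℝ) < d := by linarith
  have hpi := Real.pi_pos
  set s := Real.sin (Real.pi / (2 * d)) with hs
  have harg0 : 0 < Real.pi / (2 * d) := by positivity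
  have harg1 : Real.pi / (2 * d) ≤ Real.pi / 4 := by
    rw [div_le_div_iff₀ (by positivity) (by norm_num)]
    nlinarith
  have hs0 : 0 < s := Real.sin_pos_of_pos_of_lt_pi harg0 (by linarith)
  have hs1 : s < 1 := by
    have := Real.sin_lt_sin_of_lt_of_le_pi_div_two (x := Real.pi / (2 * d)) (y := Real.pi / 2)
      (by linarith) le_rfl (by linarith)
    rwa [Real.sin_pi_div_two] at this
  set R := ((1 + s) / (1 - s)) ^ d with hR
  have h1s : 0 < 1 - s := by linarith
  have hR1 : 1 ≤ R := one_le_pow₀ (by rw [le_div_iff₀ h1s]; linarith)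
  set c := (R - 1) / (R + 1) with hc
  -- the odd part
  set Q : Polynomial ℝ := Polynomial.C (1 / 2) * (P - P.comp (-Polynomial.X)) with hQ
  have hQeval : ∀ x, Q.eval x = (P.eval x - P.eval (-x)) / 2 := by
    intro x
    rw [hQ]
    simp only [Polynomial.eval_mul, Polynomial.eval_C, Polynomial.eval_sub, Polynomial.eval_comp,
      Polynomial.eval_neg, Polynomial.eval_X]
    ring
  have hQdeg : Q.natDegree ≤ d := by
    rw [hQ]
    refine (Polynomial.natDegree_C_mul_le _ _).trans ?_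
    refine (Polynomial.natDegree_sub_le _ _).trans ?_
    rw [Polynomial.natDegree_comp, Polynomial.natDegree_neg, Polynomial.natDegree_X, mul_one,
      max_self]
    exact hdeg
  have hQder : Q.derivative.eval 0 = P.derivative.eval 0 := by
    rw [hQ]
    simp only [Polynomial.derivative_mul, Polynomial.derivative_C, Polynomial.derivative_sub,
      Polynomial.derivative_comp, Polynomial.derivative_neg, Polynomial.derivative_X,
      Polynomial.eval_mul, Polynomial.eval_C, Polynomial.eval_sub, Polynomial.eval_comp,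
      Polynomial.eval_neg, Polynomial.eval_X, Polynomial.eval_add, Polynomial.eval_zero,
      Polynomial.eval_one]
    ring_nf
  have hQb : ∀ x ∈ Set.Icc (-1 : ℝ) 1, |Q.eval x| ≤ 1 := by
    intro x hx
    rw [hQeval]
    have h1 := hb x hx
    have h2 := hb (-x) ⟨by linarith [hx.2], by linarith [hx.1]⟩
    rw [abs_le] at h1 h2 ⊢
    constructor <;> linarith [h1.1, h1.2, h2.1, h2.2]
  have hQodd : ∀ x, Q.eval (-x) = -Q.eval x := by
    intro x
    rw [hQeval, hQeval, neg_neg]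
    ring
  have hQs : Q.eval s ≤ c := by
    rw [hQeval]
    exact odd_part_le d P hb hA s hs0 hs1
  -- Riesz
  have hriesz := riesz_interpolation d hd0 Q hQdeg
  rw [hQder] at hriesz
  set w : ℕ → ℝ := fun k => Real.sin ((2 * k + 1) * Real.pi / (4 * d)) ^ 2 with hw
  have hwpos : ∀ k, k < 2 * d → 0 < w k := fun k hk => pow_pos (riesz_sin_half_pos d k hk) 2
  have hw0 : w 0 = Real.sin (Real.pi / (4 * d)) ^ 2 := by
    simp only [hw]
    congr 2
    simp
  have hcast : ((2 * d - 1 : ℕ) : ℝ) = 2 * d - 1 := by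
    rw [Nat.cast_sub (by omega)]
    push_cast
    ring
  have hwlast : w (2 * d - 1) = w 0 := by
    rw [hw0]
    simp only [hw]
    rw [hcast]
    have e : (2 * (2 * (d : ℝ) - 1) + 1) * Real.pi / (4 * d) = Real.pi - Real.pi / (4 * d) := by
      field_simp
      ring
    rw [e, Real.sin_pi_sub]
  have hnode0 : Real.sin ((2 * ((0 : ℕ) : ℝ) + 1) * Real.pi / (2 * d)) = s := by
    rw [hs]
    congr 1
    simp
  have hnodelast : Real.sin ((2 * ((2 * d - 1 : ℕ) : ℝ) + 1) * Real.pi / (2 * d)) = -s := by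
    rw [hs, hcast]
    have e : (2 * (2 * (d : ℝ) - 1) + 1) * Real.pi / (2 * d)
        = 2 * Real.pi - Real.pi / (2 * d) := by
      field_simp
      ring
    rw [e, Real.sin_two_pi_sub]
  have hw0pos : 0 < w 0 := hwpos 0 (by omega)
  have hterm : ∀ k ∈ range (2 * d),
      (-1 : ℝ) ^ k * Q.eval (Real.sin ((2 * k + 1) * Real.pi / (2 * d))) / w k
        ≤ 1 / w k - (if k = 0 then (1 - c) / w 0 else 0)
            - (if k = 2 * d - 1 then (1 - c) / w 0 else 0) := by
    intro k hk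
    rw [mem_range] at hk
    have hwk := hwpos k hk
    by_cases h0 : k = 0
    · subst h0
      have hne : ¬ (0 = 2 * d - 1) := by omega
      rw [if_pos rfl, if_neg hne, hnode0, pow_zero, one_mul, sub_zero, ← sub_div]
      gcongr
      linarith
    · by_cases h1 : k = 2 * d - 1
      · subst h1
        rw [if_neg h0, if_pos rfl, hnodelast, hQodd, hwlast, sub_zero, ← sub_div,
          Odd.neg_one_pow ⟨d - 1, by omega⟩]
        have : (-1 : ℝ) * -Q.eval s = Q.eval s := by ring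
        rw [this]
        gcongr
        linarith
      · rw [if_neg h0, if_neg h1, sub_zero, sub_zero]
        gcongr
        have hbd := hQb (Real.sin ((2 * k + 1) * Real.pi / (2 * d)))
          ⟨Real.neg_one_le_sin _, Real.sin_le_one _⟩
        calc (-1 : ℝ) ^ k * Q.eval (Real.sin ((2 * k + 1) * Real.pi / (2 * d)))
            ≤ |(-1 : ℝ) ^ k * Q.eval (Real.sin ((2 * k + 1) * Real.pi / (2 * d)))| :=
              le_abs_self _
          _ = |Q.eval (Real.sin ((2 * k + 1) * Real.pi / (2 * d)))| := by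
              rw [abs_mul, abs_pow, abs_neg, abs_one, one_pow, one_mul]
          _ ≤ 1 := hbd
  have hsum := sum_le_sum hterm
  rw [sum_sub_distrib, sum_sub_distrib, sum_ite_eq', sum_ite_eq', if_pos (mem_range.mpr (by omega)),
    if_pos (mem_range.mpr (by omega)), riesz_weights d hd0] at hsum
  rw [hriesz]
  have hR0 : 0 < R + 1 := by linarith
  have hc1 : 1 - c = 2 / (R + 1) := by
    rw [hc]; field_simp; ring
  rw [← hw0]
  calc (1 / (4 * (d : ℝ))) * ∑ k ∈ range (2 * d),
        (-1 : ℝ) ^ k * Q.eval (Real.sin ((2 * k + 1) * Real.pi / (2 * d))) / w k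
      ≤ (1 / (4 * (d : ℝ))) * (4 * (d : ℝ) ^ 2 - (1 - c) / w 0 - (1 - c) / w 0) := by
        gcongr
    _ = d - 1 / (d * w 0 * (1 + R)) := by
        rw [hc1]
        field_simp
        ring

/-- Corollary with a clean constant: under the same hypotheses, `P'(0) ≤ (24/25) d`. -/
theorem deriv_zero_le_mul_of_boolean_bernstein (d : ℕ) (hd : 2 ≤ d) (P : Polynomial ℝ)
    (hdeg : P.natDegree ≤ d)
    (hb : ∀ x ∈ Set.Icc (-1 : ℝ) 1, |P.eval x| ≤ 1)
    (hA : ∀ x ∈ Set.Ioo (-1 : ℝ) 1,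
      |P.derivative.eval x| * (1 - x ^ 2) ≤ d * (1 - (P.eval x) ^ 2)) :
    P.derivative.eval 0 ≤ (24 / 25 : ℝ) * d := by
  have hmain := deriv_zero_le_of_boolean_bernstein d hd P hdeg hb hA
  have hR := ratio_pow_le d hd
  have hdR : (2 : ℝ) ≤ d := by exact_mod_cast hd
  have hdpos : (0 : ℝ) < d := by linarith
  have hpi := Real.pi_pos
  have hpi2 : Real.pi < 3.15 := Real.pi_lt_d2
  have harg0 : 0 < Real.pi / (4 * d) := by positivity
  have harg1 : Real.pi / (4 * d) < Real.pi := by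
    rw [div_lt_iff₀ (by positivity)]
    nlinarith
  have hsin0 : 0 < Real.sin (Real.pi / (4 * d)) := Real.sin_pos_of_pos_of_lt_pi harg0 harg1
  have hsin1 : Real.sin (Real.pi / (4 * d)) ≤ Real.pi / (4 * d) := Real.sin_le harg0.le
  have hw : Real.sin (Real.pi / (4 * d)) ^ 2 ≤ (Real.pi / (4 * d)) ^ 2 :=
    pow_le_pow_left₀ hsin0.le hsin1 2
  set w := Real.sin (Real.pi / (4 * d)) ^ 2 with hwdef
  set R := ((1 + Real.sin (Real.pi / (2 * d))) / (1 - Real.sin (Real.pi / (2 * d)))) ^ d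
    with hRdef
  have hwpos : 0 < w := pow_pos hsin0 2
  have hR0 : 0 ≤ R := by
    have harg2 : 0 < Real.pi / (2 * d) := by positivity
    have harg3 : Real.pi / (2 * d) < Real.pi / 2 := by
      rw [div_lt_div_iff₀ (by positivity) (by norm_num)]
      nlinarith
    have hs0 : 0 < Real.sin (Real.pi / (2 * d)) :=
      Real.sin_pos_of_pos_of_lt_pi harg2 (by linarith)
    have hs1 : Real.sin (Real.pi / (2 * d)) < 1 := by
      have := Real.sin_lt_sin_of_lt_of_le_pi_div_two (x := Real.pi / (2 * d)) (y := Real.pi / 2)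
        (by linarith) le_rfl harg3
      rwa [Real.sin_pi_div_two] at this
    exact pow_nonneg (div_nonneg (by linarith) (by linarith)) d
  have hden : 0 < (d : ℝ) * w * (1 + R) := by positivity
  have hkey : (d : ℝ) / 25 ≤ 1 / (d * w * (1 + R)) := by
    rw [le_div_iff₀ hden]
    have h1 : (d : ℝ) ^ 2 * w ≤ Real.pi ^ 2 / 16 := by
      calc (d : ℝ) ^ 2 * w ≤ (d : ℝ) ^ 2 * (Real.pi / (4 * d)) ^ 2 :=
            mul_le_mul_of_nonneg_left hw (by positivity)
        _ = Real.pi ^ 2 / 16 := by field_simp; ring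
    have h2 : Real.pi ^ 2 ≤ 10 := by nlinarith
    have h3 : (d : ℝ) ^ 2 * w * (1 + R) ≤ (10 / 16) * 40 := by
      apply mul_le_mul (by linarith) (by linarith) (by linarith) (by norm_num)
    calc (d : ℝ) / 25 * (d * w * (1 + R)) = ((d : ℝ) ^ 2 * w * (1 + R)) / 25 := by ring
      _ ≤ ((10 / 16) * 40) / 25 := by gcongr
      _ = 1 := by norm_num
  linarith

end Vale.Agent.H18
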