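import Mathlib

/-!
# M. Riesz interpolation formula at the origin

For a real polynomial `Q` of degree at most `n ≥ 1`,

`Q'(0) = (1/(4n)) ∑_{k<2n} (-1)^k Q(sin t_k) / sin^2 (t_k/2)`, `t_k = (2k+1)π/(2n)`,

and `∑_{k<2n} 1 / sin^2 (t_k/2) = 4 n^2`.  Consequently `|Q'(0)| ≤ n` whenever `|Q| ≤ 1` on
`[-1, 1]` (Bernstein's inequality at the origin).

Proof: the points `ζ_k = exp (i t_k)` are the roots of `z^(2n) = -1`; the sums
`A_m = ∑ ζ^m / (ζ - 1)^2` satisfy a second-difference recurrence, which gives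
`A_(m+1) = n (m - n)` for `0 ≤ m ≤ 2n`.
-/

namespace Vale.Agent.H18

open Finset

noncomputable section

/-- the primitive `4n`-th root of unity `exp (i π / (2n))` -/
def rOmega (n : ℕ) : ℂ := Complex.exp (Complex.I * (Real.pi / (2 * n)))

/-- the `2n` roots of `z ^ (2n) = -1` -/
def rZeta (n k : ℕ) : ℂ := rOmega n ^ (2 * k + 1)

theorem rOmega_pow (n : ℕ) (hn : 0 < n) : rOmega n ^ (2 * n) = -1 := by
  unfold rOmega
  rw [← Complex.exp_nat_mul]
  have hn' : (n : ℂ) ≠ 0 := by exact_mod_cast hn.ne'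
  have : ((2 * n : ℕ) : ℂ) * (Complex.I * (Real.pi / (2 * n))) = Real.pi * Complex.I := by
    push_cast
    field_simp
  rw [this, Complex.exp_pi_mul_I]

theorem rOmega_ne_zero (n : ℕ) : rOmega n ≠ 0 := Complex.exp_ne_zero _

theorem rZeta_ne_zero (n k : ℕ) : rZeta n k ≠ 0 := pow_ne_zero _ (rOmega_ne_zero n)

theorem rZeta_pow (n k : ℕ) (hn : 0 < n) : rZeta n k ^ (2 * n) = -1 := by
  unfold rZeta
  rw [← pow_mul, mul_comm, pow_mul, rOmega_pow n hn]
  exact Odd.neg_one_pow ⟨k, rfl⟩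

theorem rZeta_ne_one (n k : ℕ) (hn : 0 < n) : rZeta n k ≠ 1 := by
  intro h
  have := rZeta_pow n k hn
  rw [h, one_pow] at this
  norm_num at this

theorem rOmega_sq_pow_ne_one (n m : ℕ) (hm : 0 < m) (hm2 : m < 2 * n) :
    rOmega n ^ (2 * m) ≠ 1 := by
  have hn : 0 < n := by omega
  unfold rOmega
  rw [← Complex.exp_nat_mul]
  intro h
  rw [Complex.exp_eq_one_iff] at h
  obtain ⟨j, hj⟩ := h
  have hn' : (n : ℂ) ≠ 0 := by exact_mod_cast hn.ne'
  have hpi : (Real.pi : ℂ) ≠ 0 := by exact_mod_cast Real.pi_ne_zero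
  have h1 : (m : ℂ) = (j : ℂ) * (2 * n) := by
    have h2 : ((2 * m : ℕ) : ℂ) * (Complex.I * (Real.pi / (2 * n)))
        = (m : ℂ) / n * (Real.pi * Complex.I) := by
      push_cast; field_simp
    rw [h2] at hj
    have h3 : (j : ℂ) * (2 * Real.pi * Complex.I) = (2 * j : ℂ) * (Real.pi * Complex.I) := by ring
    rw [h3] at hj
    have h4 : (Real.pi : ℂ) * Complex.I ≠ 0 := mul_ne_zero hpi Complex.I_ne_zero
    have h5 := mul_right_cancel₀ h4 hj
    field_simp at h5
    linear_combination h5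
  have h6 : (m : ℤ) = j * (2 * n) := by exact_mod_cast h1
  have hjpos : 0 < j := by
    by_contra hneg
    push Not at hneg
    have : j * (2 * (n : ℤ)) ≤ 0 := mul_nonpos_of_nonpos_of_nonneg hneg (by positivity)
    omega
  have : (2 * (n : ℤ)) ≤ j * (2 * n) := by nlinarith
  omega

theorem sum_rZeta_pow (n m : ℕ) (hm : 0 < m) (hm2 : m < 2 * n) :
    ∑ k ∈ range (2 * n), rZeta n k ^ m = 0 := by
  have hn : 0 < n := by omega
  have h1 : ∀ k, rZeta n k ^ m = rOmega n ^ m * (rOmega n ^ (2 * m)) ^ k := by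
    intro k
    unfold rZeta
    rw [← pow_mul, ← pow_mul, ← pow_add]
    congr 1
    ring
  simp_rw [h1]
  rw [← mul_sum, geom_sum_eq (rOmega_sq_pow_ne_one n m hm hm2)]
  have h2 : (rOmega n ^ (2 * m)) ^ (2 * n) = 1 := by
    rw [← pow_mul, show 2 * m * (2 * n) = (2 * n) * (2 * m) by ring, pow_mul, rOmega_pow n hn]
    exact Even.neg_one_pow ⟨m, by ring⟩
  rw [h2]
  simp

theorem rZeta_reflect (n k : ℕ) (hn : 0 < n) (hk : k < 2 * n) :
    rZeta n (2 * n - 1 - k) = (rZeta n k)⁻¹ := by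
  apply eq_inv_of_mul_eq_one_left
  unfold rZeta
  rw [← pow_add]
  have : 2 * (2 * n - 1 - k) + 1 + (2 * k + 1) = (2 * n) * 2 := by omega
  rw [this, pow_mul, rOmega_pow n hn]
  norm_num

/-- `A n m = ∑ ζ^m / (ζ - 1)^2` over the roots of `z^(2n) = -1` -/
def rA (n m : ℕ) : ℂ := ∑ k ∈ range (2 * n), rZeta n k ^ m / (rZeta n k - 1) ^ 2

theorem rA_rec (n m : ℕ) (hm : 0 < m) (hm2 : m < 2 * n) :
    rA n (m + 2) - 2 * rA n (m + 1) + rA n m = 0 := by
  have hn : 0 < n := by omega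
  unfold rA
  rw [mul_sum, ← sum_sub_distrib, ← sum_add_distrib, ← sum_rZeta_pow n m hm hm2]
  refine sum_congr rfl fun k _ => ?_
  have h1 : rZeta n k - 1 ≠ 0 := sub_ne_zero.mpr (rZeta_ne_one n k hn)
  field_simp
  ring

theorem rA_rec_zero (n : ℕ) (hn : 0 < n) :
    rA n 2 - 2 * rA n 1 + rA n 0 = 2 * n := by
  unfold rA
  rw [mul_sum, ← sum_sub_distrib, ← sum_add_distrib]
  have : ∀ k ∈ range (2 * n), rZeta n k ^ 2 / (rZeta n k - 1) ^ 2
      - 2 * (rZeta n k ^ 1 / (rZeta n k - 1) ^ 2) + rZeta n k ^ 0 / (rZeta n k - 1) ^ 2 = 1 := by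
    intro k _
    have h1 : rZeta n k - 1 ≠ 0 := sub_ne_zero.mpr (rZeta_ne_one n k hn)
    have h2 : rZeta n k ^ 2 / (rZeta n k - 1) ^ 2
      - 2 * (rZeta n k ^ 1 / (rZeta n k - 1) ^ 2) + rZeta n k ^ 0 / (rZeta n k - 1) ^ 2
      = (rZeta n k - 1) ^ 2 / (rZeta n k - 1) ^ 2 := by ring
    rw [h2, div_self (pow_ne_zero 2 h1)]
  rw [sum_congr rfl this]
  simp

theorem rA_symm (n : ℕ) (hn : 0 < n) : rA n 0 = rA n 2 := by
  unfold rA
  rw [← sum_range_reflect]
  refine sum_congr rfl fun k hk => ?_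
  rw [mem_range] at hk
  rw [rZeta_reflect n k hn hk]
  have h0 := rZeta_ne_zero n k
  have h1 : rZeta n k - 1 ≠ 0 := sub_ne_zero.mpr (rZeta_ne_one n k hn)
  have e : (rZeta n k)⁻¹ - 1 = -(rZeta n k - 1) / rZeta n k := by
    field_simp
    ring
  rw [e, pow_zero, div_pow, neg_sq, one_div_div]

theorem rA_neg (n : ℕ) (hn : 0 < n) : rA n (2 * n + 1) = - rA n 1 := by
  unfold rA
  rw [← sum_neg_distrib]
  refine sum_congr rfl fun k _ => ?_
  rw [pow_succ, rZeta_pow n k hn]
  ring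

theorem rA_affine (n : ℕ) (m : ℕ) (hm : m ≤ 2 * n) :
    rA n (m + 1) = rA n 1 + m * (rA n 2 - rA n 1) := by
  induction m using Nat.strong_induction_on with
  | _ m ih =>
    match m, ih, hm with
    | 0, _, _ => simp
    | 1, _, _ => simp
    | (m + 2), ih, hm =>
      have h1 := ih m (by omega) (by omega)
      have h2 := ih (m + 1) (by omega) (by omega)
      have h3 := rA_rec n (m + 1) (by omega) (by omega)
      have e1 : m + 1 + 2 = m + 2 + 1 := by ring
      have e2 : m + 1 + 1 = m + 2 := by ring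
      rw [e1] at h3
      rw [e2] at h3 h2
      push_cast at h2 ⊢
      linear_combination h3 + 2 * h2 - h1

theorem rA_eq (n : ℕ) (hn : 0 < n) (m : ℕ) (hm : m ≤ 2 * n) :
    rA n (m + 1) = n * ((m : ℂ) - n) := by
  have hδ : rA n 2 - rA n 1 = n := by
    have h1 := rA_rec_zero n hn
    have h2 := rA_symm n hn
    rw [h2] at h1
    linear_combination h1 / 2
  have h3 := rA_affine n (2 * n) le_rfl
  rw [rA_neg n hn, hδ] at h3
  push_cast at h3
  have h4 : rA n 1 = -(n : ℂ) ^ 2 := by linear_combination (-1 / 2 : ℂ) * h3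
  rw [rA_affine n m hm, hδ, h4]
  ring

theorem sum_rZeta_monomial (n : ℕ) (hn : 0 < n) (m : ℕ) (hm : m ≤ 2 * n) (c : ℂ) :
    ∑ k ∈ range (2 * n), rZeta n k * (Polynomial.monomial m c).eval (rZeta n k)
        / (rZeta n k - 1) ^ 2
      = n * ((Polynomial.monomial m c).derivative.eval 1
          - n * (Polynomial.monomial m c).eval 1) := by
  have h1 : ∀ k ∈ range (2 * n), rZeta n k * (Polynomial.monomial m c).eval (rZeta n k)
        / (rZeta n k - 1) ^ 2 = c * (rZeta n k ^ (m + 1) / (rZeta n k - 1) ^ 2) := by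
    intro k _
    rw [Polynomial.eval_monomial]
    ring
  rw [sum_congr rfl h1, ← mul_sum]
  have h2 := rA_eq n hn m hm
  unfold rA at h2
  rw [h2, Polynomial.derivative_monomial, Polynomial.eval_monomial, Polynomial.eval_monomial]
  simp
  ring

theorem sum_rZeta_poly (n : ℕ) (hn : 0 < n) (g : Polynomial ℂ) (hg : g.natDegree ≤ 2 * n) :
    ∑ k ∈ range (2 * n), rZeta n k * g.eval (rZeta n k) / (rZeta n k - 1) ^ 2
      = n * (g.derivative.eval 1 - n * g.eval 1) := by
  have hg' : g.natDegree < 2 * n + 1 := by omega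
  have e := Polynomial.as_sum_range' g (2 * n + 1) hg'
  have key : ∀ (s : Finset ℕ), (∀ m ∈ s, m ≤ 2 * n) →
      ∑ k ∈ range (2 * n), rZeta n k *
          (∑ m ∈ s, Polynomial.monomial m (g.coeff m)).eval (rZeta n k) / (rZeta n k - 1) ^ 2
        = n * ((∑ m ∈ s, Polynomial.monomial m (g.coeff m)).derivative.eval 1
            - n * (∑ m ∈ s, Polynomial.monomial m (g.coeff m)).eval 1) := by
    intro s hs
    simp only [Polynomial.eval_finsetSum, Polynomial.derivative_sum, mul_sum, sum_div]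
    rw [sum_comm, ← sum_sub_distrib, mul_sum]
    refine sum_congr rfl fun m hm => ?_
    have := sum_rZeta_monomial n hn m (hs m hm) (g.coeff m)
    rw [this, mul_sub]
  have := key (range (2 * n + 1)) (fun m hm => by rw [mem_range] at hm; omega)
  rw [← e] at this
  exact this

/-! ### The auxiliary polynomial `z^(n-m) (z^2-1)^m` -/

/-- `rG n m c = c / (2i)^m * z^(n-m) * (z^2-1)^m`, so that
`rG n m c (ζ) = c * ζ^n * ((ζ - ζ⁻¹)/(2i))^m`. -/
def rG (n m : ℕ) (c : ℂ) : Polynomial ℂ :=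
  Polynomial.C (c / (2 * Complex.I) ^ m) * Polynomial.X ^ (n - m)
    * (Polynomial.X ^ 2 - 1) ^ m

theorem rG_natDegree (n m : ℕ) (c : ℂ) (hm : m ≤ n) : (rG n m c).natDegree ≤ 2 * n := by
  unfold rG
  have h1 : (Polynomial.X ^ 2 - 1 : Polynomial ℂ).natDegree ≤ 2 := by
    have := Polynomial.natDegree_sub_le (Polynomial.X ^ 2 : Polynomial ℂ) 1
    simp at this
    exact this
  calc _ ≤ (Polynomial.C (c / (2 * Complex.I) ^ m) * Polynomial.X ^ (n - m)).natDegree
        + ((Polynomial.X ^ 2 - 1 : Polynomial ℂ) ^ m).natDegree := Polynomial.natDegree_mul_le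
    _ ≤ (n - m) + m * 2 := by
        gcongr
        · exact (Polynomial.natDegree_C_mul_le _ _).trans (Polynomial.natDegree_X_pow_le _)
        · exact Polynomial.natDegree_pow_le.trans (by gcongr)
    _ ≤ 2 * n := by omega

theorem rG_eval (n m : ℕ) (c : ℂ) (hm : m ≤ n) (z : ℂ) (hz : z ≠ 0) :
    (rG n m c).eval z = c * z ^ n * ((z - z⁻¹) / (2 * Complex.I)) ^ m := by
  unfold rG
  have hI : (2 * Complex.I) ≠ 0 := mul_ne_zero two_ne_zero Complex.I_ne_zero
  have e1 : z - z⁻¹ = (z ^ 2 - 1) / z := by field_simp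
  have e2 : z ^ n = z ^ (n - m) * z ^ m := by rw [← pow_add]; congr 1; omega
  simp only [Polynomial.eval_mul, Polynomial.eval_C, Polynomial.eval_pow, Polynomial.eval_X,
    Polynomial.eval_sub, Polynomial.eval_one]
  rw [e1, e2, div_pow, div_pow]
  have hzm : z ^ m ≠ 0 := pow_ne_zero _ hz
  have hIm : (2 * Complex.I) ^ m ≠ 0 := pow_ne_zero _ hI
  field_simp

theorem rG_eval_one (n m : ℕ) (c : ℂ) :
    (rG n m c).eval 1 = if m = 0 then c else 0 := by
  unfold rG
  simp only [Polynomial.eval_mul, Polynomial.eval_C, Polynomial.eval_pow, Polynomial.eval_X,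
    Polynomial.eval_sub, Polynomial.eval_one]
  by_cases h : m = 0
  · subst h; simp
  · simp [h]

theorem rG_derivative_eval_one (n m : ℕ) (c : ℂ) :
    (rG n m c).derivative.eval 1
      = if m = 0 then c * n else if m = 1 then c / Complex.I else 0 := by
  unfold rG
  match m with
  | 0 => simp [Polynomial.derivative_X_pow]
  | 1 =>
    simp only [Polynomial.derivative_mul, Polynomial.derivative_C, Polynomial.derivative_X_pow,
      Polynomial.derivative_sub, Polynomial.derivative_one, pow_one]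
    simp
    have hI : Complex.I ≠ 0 := Complex.I_ne_zero
    field_simp
    rw [Complex.I_sq]
    ring
  | (m + 2) =>
    have : ((Polynomial.X ^ 2 - 1 : Polynomial ℂ) ^ (m + 2)).derivative.eval 1 = 0 := by
      rw [Polynomial.derivative_pow]
      simp
    simp only [Polynomial.derivative_mul, Polynomial.eval_add, Polynomial.eval_mul, this]
    simp

theorem rG_combo (n m : ℕ) (c : ℂ) :
    Complex.I * ((rG n m c).derivative.eval 1 - n * (rG n m c).eval 1)
      = if m = 1 then c else 0 := by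
  rw [rG_derivative_eval_one, rG_eval_one]
  by_cases h0 : m = 0
  · subst h0; simp; ring
  · by_cases h1 : m = 1
    · subst h1
      simp
      field_simp
      rw [Complex.I_sq]
      ring
    · simp [h0, h1]

/-! ### Bridging real trigonometric values and the complex roots -/

theorem rZeta_eq_exp (n k : ℕ) :
    rZeta n k = Complex.exp ((((2 * k + 1) * Real.pi / (2 * n) : ℝ) : ℂ) * Complex.I) := by
  unfold rZeta rOmega
  rw [← Complex.exp_nat_mul]
  congr 1
  push_cast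
  ring

theorem ofReal_sin_node (n k : ℕ) :
    ((Real.sin ((2 * k + 1) * Real.pi / (2 * n)) : ℝ) : ℂ)
      = (rZeta n k - (rZeta n k)⁻¹) / (2 * Complex.I) := by
  rw [Complex.ofReal_sin, rZeta_eq_exp, Complex.sin, ← Complex.exp_neg]
  have hI : Complex.I ≠ 0 := Complex.I_ne_zero
  rw [neg_mul]
  field_simp
  rw [Complex.I_sq]
  ring

theorem ofReal_sin_half_sq (n k : ℕ) :
    ((Real.sin ((2 * k + 1) * Real.pi / (4 * n)) ^ 2 : ℝ) : ℂ)
      = -(rZeta n k - 1) ^ 2 / (4 * rZeta n k) := by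
  have h0 := rZeta_ne_zero n k
  rw [Real.sin_sq_eq_half_sub]
  have e : 2 * ((2 * (k : ℝ) + 1) * Real.pi / (4 * n)) = (2 * k + 1) * Real.pi / (2 * n) := by
    ring
  rw [e]
  push_cast
  rw [show ((2 * (k : ℂ) + 1) * (Real.pi : ℂ) / (2 * (n : ℂ)))
      = (((2 * k + 1) * Real.pi / (2 * n) : ℝ) : ℂ) by push_cast; ring]
  rw [Complex.cos, neg_mul, Complex.exp_neg, ← rZeta_eq_exp]
  field_simp
  ring

theorem neg_one_pow_eq (n k : ℕ) (hn : 0 < n) :
    ((-1 : ℂ)) ^ k = -Complex.I * rZeta n k ^ n := by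
  have h1 : rOmega n ^ n = Complex.I := by
    unfold rOmega
    rw [← Complex.exp_nat_mul]
    have hn' : (n : ℂ) ≠ 0 := by exact_mod_cast hn.ne'
    have e : (n : ℂ) * (Complex.I * (Real.pi / (2 * n))) = Real.pi / 2 * Complex.I := by
      field_simp
    rw [e, Complex.exp_pi_div_two_mul_I]
  unfold rZeta
  rw [← pow_mul, mul_comm (2 * k + 1) n, pow_mul, h1, pow_succ, pow_mul, Complex.I_sq]
  ring_nf
  rw [Complex.I_sq]
  ring

theorem ofReal_sin_half_sq' (n k : ℕ) :
    ((Real.sin ((2 * k + 1) * Real.pi / (4 * n)) : ℝ) : ℂ) ^ 2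
      = -(rZeta n k - 1) ^ 2 / (4 * rZeta n k) := by
  rw [← Complex.ofReal_pow]
  exact ofReal_sin_half_sq n k

/-! ### M. Riesz interpolation formula at the origin -/

theorem riesz_term (n : ℕ) (hn : 0 < n) (m : ℕ) (hm : m ≤ n) (c : ℝ) (k : ℕ) :
    (((-1 : ℝ) ^ k
          * (Polynomial.monomial m c).eval (Real.sin ((2 * k + 1) * Real.pi / (2 * n)))
          / Real.sin ((2 * k + 1) * Real.pi / (4 * n)) ^ 2 : ℝ) : ℂ)
      = 4 * Complex.I * (rZeta n k * (rG n m c).eval (rZeta n k) / (rZeta n k - 1) ^ 2) := by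
  have h0 := rZeta_ne_zero n k
  have h1 : rZeta n k - 1 ≠ 0 := sub_ne_zero.mpr (rZeta_ne_one n k hn)
  rw [rG_eval n m c hm _ h0, Polynomial.eval_monomial]
  simp only [Complex.ofReal_mul, Complex.ofReal_div, Complex.ofReal_pow, Complex.ofReal_neg,
    Complex.ofReal_one]
  rw [ofReal_sin_node, ofReal_sin_half_sq', neg_one_pow_eq n k hn]
  generalize (rZeta n k - (rZeta n k)⁻¹) / (2 * Complex.I) = S
  field_simp

theorem riesz_monomial_complex (n : ℕ) (hn : 0 < n) (m : ℕ) (hm : m ≤ n) (c : ℝ) :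
    (((1 / (4 * (n : ℝ))) * ∑ k ∈ range (2 * n),
          (-1 : ℝ) ^ k
            * (Polynomial.monomial m c).eval (Real.sin ((2 * k + 1) * Real.pi / (2 * n)))
            / Real.sin ((2 * k + 1) * Real.pi / (4 * n)) ^ 2 : ℝ) : ℂ)
      = if m = 1 then (c : ℂ) else 0 := by
  have hn' : (n : ℂ) ≠ 0 := by exact_mod_cast hn.ne'
  rw [Complex.ofReal_mul, Complex.ofReal_sum,
    sum_congr rfl (fun k _ => riesz_term n hn m hm c k), ← mul_sum,
    sum_rZeta_poly n hn _ (rG_natDegree n m c hm)]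
  have h2 := rG_combo n m c
  have h3 : ((1 / (4 * (n : ℝ)) : ℝ) : ℂ) * (4 * Complex.I *
      (n * ((rG n m c).derivative.eval 1 - n * (rG n m c).eval 1)))
      = Complex.I * ((rG n m c).derivative.eval 1 - n * (rG n m c).eval 1) := by
    push_cast
    field_simp
  rw [h3, h2]

theorem riesz_monomial (n : ℕ) (hn : 0 < n) (m : ℕ) (hm : m ≤ n) (c : ℝ) :
    (Polynomial.monomial m c).derivative.eval 0
      = (1 / (4 * (n : ℝ))) * ∑ k ∈ range (2 * n),
          (-1 : ℝ) ^ k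
            * (Polynomial.monomial m c).eval (Real.sin ((2 * k + 1) * Real.pi / (2 * n)))
            / Real.sin ((2 * k + 1) * Real.pi / (4 * n)) ^ 2 := by
  have h := riesz_monomial_complex n hn m hm c
  have h' : (((Polynomial.monomial m c).derivative.eval 0 : ℝ) : ℂ)
      = if m = 1 then (c : ℂ) else 0 := by
    rw [Polynomial.derivative_monomial, Polynomial.eval_monomial]
    match m with
    | 0 => simp
    | 1 => simp
    | (m + 2) => simp
  exact Complex.ofReal_injective (h'.trans h.symm)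

/-- **M. Riesz interpolation formula at the origin**: for a real polynomial `Q` of degree at
most `n`, `Q'(0) = (1/(4n)) ∑_{k<2n} (-1)^k Q(sin t_k) / sin^2 (t_k/2)`, `t_k = (2k+1)π/(2n)`. -/
theorem riesz_interpolation (n : ℕ) (hn : 0 < n) (Q : Polynomial ℝ) (hQ : Q.natDegree ≤ n) :
    Q.derivative.eval 0
      = (1 / (4 * (n : ℝ))) * ∑ k ∈ range (2 * n),
          (-1 : ℝ) ^ k * Q.eval (Real.sin ((2 * k + 1) * Real.pi / (2 * n)))
            / Real.sin ((2 * k + 1) * Real.pi / (4 * n)) ^ 2 := by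
  have hQ' : Q.natDegree < n + 1 := by omega
  have e := Polynomial.as_sum_range' Q (n + 1) hQ'
  have key : ∀ (s : Finset ℕ), (∀ m ∈ s, m ≤ n) →
      (∑ m ∈ s, Polynomial.monomial m (Q.coeff m)).derivative.eval 0
        = (1 / (4 * (n : ℝ))) * ∑ k ∈ range (2 * n),
          (-1 : ℝ) ^ k * (∑ m ∈ s, Polynomial.monomial m (Q.coeff m)).eval
              (Real.sin ((2 * k + 1) * Real.pi / (2 * n)))
            / Real.sin ((2 * k + 1) * Real.pi / (4 * n)) ^ 2 := by
    intro s hs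
    simp only [Polynomial.eval_finsetSum, Polynomial.derivative_sum, mul_sum, sum_div]
    rw [sum_comm]
    refine sum_congr rfl fun m hm => ?_
    have := riesz_monomial n hn m (hs m hm) (Q.coeff m)
    rw [this, mul_sum]
  have := key (range (n + 1)) (fun m hm => by rw [mem_range] at hm; omega)
  rw [← e] at this
  exact this

/-- The nodes of the half angles lie in `(0, π)`, so their sines are positive. -/
theorem riesz_sin_half_pos (n k : ℕ) (hk : k < 2 * n) :
    0 < Real.sin ((2 * k + 1) * Real.pi / (4 * n)) := by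
  have hn : 0 < n := by omega
  have hn' : (0 : ℝ) < n := by exact_mod_cast hn
  have hk' : (k : ℝ) + 1 ≤ 2 * n := by exact_mod_cast hk
  apply Real.sin_pos_of_pos_of_lt_pi
  · have := Real.pi_pos
    positivity
  · rw [div_lt_iff₀ (by positivity)]
    have := Real.pi_pos
    nlinarith

/-- The weights of the Riesz formula: `∑_{k<2n} 1 / sin^2 ((2k+1)π/(4n)) = 4 n^2`, so the
coefficients `1 / (4 n sin^2)` sum to `n`. -/
theorem riesz_weights (n : ℕ) (hn : 0 < n) :
    ∑ k ∈ range (2 * n), 1 / Real.sin ((2 * k + 1) * Real.pi / (4 * n)) ^ 2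
      = 4 * (n : ℝ) ^ 2 := by
  apply Complex.ofReal_injective
  have hterm : ∀ k ∈ range (2 * n),
      ((1 / Real.sin ((2 * k + 1) * Real.pi / (4 * n)) ^ 2 : ℝ) : ℂ)
        = -4 * (rZeta n k ^ (0 + 1) / (rZeta n k - 1) ^ 2) := by
    intro k _
    have h0 := rZeta_ne_zero n k
    have h1 : rZeta n k - 1 ≠ 0 := sub_ne_zero.mpr (rZeta_ne_one n k hn)
    simp only [Complex.ofReal_div, Complex.ofReal_pow, Complex.ofReal_one]
    rw [ofReal_sin_half_sq', zero_add, pow_one]
    field_simp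
  rw [Complex.ofReal_sum, sum_congr rfl hterm, ← mul_sum]
  have h2 := rA_eq n hn 0 (by omega)
  unfold rA at h2
  rw [h2]
  push_cast
  ring

/-- Absolute-value form: `|Q'(0)| ≤ (1/(4n)) ∑_{k<2n} |Q(sin t_k)| / sin^2 (t_k/2)`. -/
theorem riesz_abs_le (n : ℕ) (hn : 0 < n) (Q : Polynomial ℝ) (hQ : Q.natDegree ≤ n) :
    |Q.derivative.eval 0|
      ≤ (1 / (4 * (n : ℝ))) * ∑ k ∈ range (2 * n),
          |Q.eval (Real.sin ((2 * k + 1) * Real.pi / (2 * n)))|
            / Real.sin ((2 * k + 1) * Real.pi / (4 * n)) ^ 2 := by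
  rw [riesz_interpolation n hn Q hQ, abs_mul, abs_of_nonneg (by positivity)]
  gcongr
  refine (abs_sum_le_sum_abs _ _).trans (le_of_eq ?_)
  refine sum_congr rfl fun k _ => ?_
  rw [abs_div, abs_mul, abs_pow, abs_neg, abs_one, one_pow, one_mul,
    abs_of_nonneg (sq_nonneg (Real.sin ((2 * (k : ℝ) + 1) * Real.pi / (4 * n))))]

/-- **Bernstein's inequality at the origin** (consequence): if `|Q| ≤ 1` on `[-1, 1]` and
`deg Q ≤ n` then `|Q'(0)| ≤ n`. -/
theorem bernstein_at_zero (n : ℕ) (hn : 0 < n) (Q : Polynomial ℝ) (hQ : Q.natDegree ≤ n)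
    (hb : ∀ x ∈ Set.Icc (-1 : ℝ) 1, |Q.eval x| ≤ 1) :
    |Q.derivative.eval 0| ≤ n := by
  refine (riesz_abs_le n hn Q hQ).trans ?_
  have hn' : (0 : ℝ) < n := by exact_mod_cast hn
  have h1 : ∑ k ∈ range (2 * n),
      |Q.eval (Real.sin ((2 * k + 1) * Real.pi / (2 * n)))|
        / Real.sin ((2 * k + 1) * Real.pi / (4 * n)) ^ 2
      ≤ ∑ k ∈ range (2 * n), 1 / Real.sin ((2 * k + 1) * Real.pi / (4 * n)) ^ 2 := by
    refine sum_le_sum fun k hk => ?_
    rw [mem_range] at hk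
    have hpos := riesz_sin_half_pos n k hk
    gcongr
    exact hb _ ⟨Real.neg_one_le_sin _, Real.sin_le_one _⟩
  rw [riesz_weights n hn] at h1
  calc (1 / (4 * (n : ℝ))) * ∑ k ∈ range (2 * n),
          |Q.eval (Real.sin ((2 * k + 1) * Real.pi / (2 * n)))|
            / Real.sin ((2 * k + 1) * Real.pi / (4 * n)) ^ 2
      ≤ (1 / (4 * (n : ℝ))) * (4 * (n : ℝ) ^ 2) := by gcongr
    _ = n := by field_simp

end

end Vale.Agent.H18
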